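import Mathlib

open Finset BigOperators Real

namespace Vale.Agent.Lib.P249Low

/-- The gap between two grid cells: `(|i - j| - 1)_+`. -/
noncomputable def dd {m : ℕ} (i j : Fin m) : ℝ :=
  max (|((i : ℕ) : ℝ) - ((j : ℕ) : ℝ)| - 1) 0

lemma dd_nonneg {m : ℕ} (i j : Fin m) : 0 ≤ dd i j := le_max_right _ _

lemma abs_sub_le_dd {m : ℕ} (i j : Fin m) :
    |((i : ℕ) : ℝ) - ((j : ℕ) : ℝ)| ≤ dd i j + 1 := by
  have := le_max_left (|((i : ℕ) : ℝ) - ((j : ℕ) : ℝ)| - 1) 0
  unfold dd; linarith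

/-- Relative entropy with respect to the uniform law on `Fin m`. -/
noncomputable def relEnt {m : ℕ} (a : Fin m → ℝ) : ℝ :=
  ∑ i, a i * Real.log (a i) + Real.log m

lemma mul_log_ge (t : ℝ) (ht : 0 ≤ t) : 2 * t - 2 * √t ≤ t * Real.log t := by
  rcases ht.eq_or_lt with rfl | ht
  · simp
  · have hs : 0 < √t := Real.sqrt_pos.2 ht
    have h1 : Real.log t = 2 * Real.log √t := by
      rw [Real.log_sqrt ht.le]; ring
    have h2 : 1 - 1 / √t ≤ Real.log √t := by
      have := Real.one_sub_inv_le_log_of_pos hs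
      simpa [one_div] using this
    have h3 : t * (1 - 1 / √t) = t - √t := by
      have : t = √t * √t := (Real.mul_self_sqrt ht.le).symm
      field_simp
      nlinarith
    rw [h1]
    have h4 : t * (1 - 1 / √t) ≤ t * Real.log √t :=
      mul_le_mul_of_nonneg_left h2 ht.le
    nlinarith

/-- Hellinger bound: a deviation from the uniform law on a set of indices is controlled by relative entropy. -/
lemma dev_sq_le {m : ℕ} (hm : 0 < m) (a : Fin m → ℝ) (ha : ∀ i, 0 ≤ a i) (hs : ∑ i, a i = 1)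
    (E : Finset (Fin m)) :
    (∑ i ∈ E, a i - (E.card : ℝ) / m) ^ 2 ≤ 4 * relEnt a := by
  have hm0 : (0 : ℝ) < m := by exact_mod_cast hm
  set r : Fin m → ℝ := fun i => √((m : ℝ) * a i) with hr
  have hr2 : ∀ i, r i ^ 2 = (m : ℝ) * a i := fun i =>
    Real.sq_sqrt (mul_nonneg hm0.le (ha i))
  have hr0 : ∀ i, 0 ≤ r i := fun i => Real.sqrt_nonneg _
  have hsumr2 : ∑ i, r i ^ 2 = m := by
    simp_rw [hr2]
    rw [← Finset.mul_sum, hs, mul_one]
  have hcard : ∑ _i : Fin m, (1 : ℝ) = m := by simp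
  -- entropy dominates Hellinger
  have hH : (∑ i, (r i - 1) ^ 2) / m ≤ relEnt a := by
    have hterm : ∀ i, (2 * ((m : ℝ) * a i) - 2 * r i) / m ≤ a i * Real.log (a i) + a i * Real.log m := by
      intro i
      have h := mul_log_ge ((m : ℝ) * a i) (mul_nonneg hm0.le (ha i))
      rw [div_le_iff₀ hm0]
      rcases (ha i).eq_or_lt with h0 | h0
      · have : r i = 0 := by simp [hr, ← h0]
        rw [this, ← h0]; simp
      · have hlog : Real.log ((m : ℝ) * a i) = Real.log m + Real.log (a i) :=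
          Real.log_mul hm0.ne' h0.ne'
        rw [hlog] at h
        nlinarith
    have hsum := Finset.sum_le_sum (fun i (_ : i ∈ (Finset.univ : Finset (Fin m))) => hterm i)
    have h1 : ∑ i, (2 * ((m : ℝ) * a i) - 2 * r i) / m = (∑ i, (r i - 1) ^ 2) / m := by
      rw [← Finset.sum_div]
      congr 1
      have e0 : ∀ i, (r i - 1) ^ 2 = r i ^ 2 - 2 * r i + 1 := fun i => by ring
      have e1 : ∑ i, (2 * ((m : ℝ) * a i) - 2 * r i) = 2 * m - 2 * ∑ i, r i := by
        rw [Finset.sum_sub_distrib, ← Finset.mul_sum, ← Finset.mul_sum, ← Finset.mul_sum, hs]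
        ring
      have e2 : ∑ i, (r i - 1) ^ 2 = (m : ℝ) - 2 * ∑ i, r i + m := by
        simp_rw [e0]
        rw [Finset.sum_add_distrib, Finset.sum_sub_distrib, hsumr2, hcard, ← Finset.mul_sum]
      rw [e1, e2]
      ring
    have h2 : ∑ i, (a i * Real.log (a i) + a i * Real.log m) = relEnt a := by
      unfold relEnt
      rw [Finset.sum_add_distrib, ← Finset.sum_mul, hs, one_mul]
    rw [h1, h2] at hsum
    exact hsum
  -- Cauchy-Schwarz
  have hΔ : ∑ i ∈ E, a i - (E.card : ℝ) / m = (∑ i ∈ E, (r i - 1) * (r i + 1)) / m := by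
    have : ∀ i, (r i - 1) * (r i + 1) = (m : ℝ) * a i - 1 := fun i => by
      rw [← hr2]; ring
    simp_rw [this]
    rw [Finset.sum_sub_distrib, ← Finset.mul_sum]
    simp only [Finset.sum_const, nsmul_eq_mul, mul_one]
    field_simp
  have hCS := Finset.sum_mul_sq_le_sq_mul_sq E (fun i => r i - 1) (fun i => r i + 1)
  have hE1 : ∑ i ∈ E, (r i - 1) ^ 2 ≤ ∑ i, (r i - 1) ^ 2 :=
    Finset.sum_le_sum_of_subset_of_nonneg (Finset.subset_univ _) (fun _ _ _ => sq_nonneg _)
  have hE2 : ∑ i ∈ E, (r i + 1) ^ 2 ≤ ∑ i, (r i + 1) ^ 2 :=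
    Finset.sum_le_sum_of_subset_of_nonneg (Finset.subset_univ _) (fun _ _ _ => sq_nonneg _)
  have hE3 : ∑ i, (r i + 1) ^ 2 ≤ 4 * (m : ℝ) := by
    have : ∀ i, (r i + 1) ^ 2 ≤ 2 * r i ^ 2 + 2 := fun i => by nlinarith [sq_nonneg (r i - 1)]
    calc ∑ i, (r i + 1) ^ 2 ≤ ∑ i, (2 * r i ^ 2 + 2) := Finset.sum_le_sum (fun i _ => this i)
      _ = 4 * (m : ℝ) := by
        rw [Finset.sum_add_distrib, ← Finset.mul_sum, hsumr2]
        simp
        ring
  rw [hΔ, div_pow]
  rw [div_le_iff₀ (by positivity)]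
  have hH' : ∑ i, (r i - 1) ^ 2 ≤ relEnt a * m := by
    rwa [div_le_iff₀ hm0] at hH
  have hnn : 0 ≤ ∑ i ∈ E, (r i - 1) ^ 2 := Finset.sum_nonneg (fun _ _ => sq_nonneg _)
  have hnn2 : 0 ≤ ∑ i ∈ E, (r i + 1) ^ 2 := Finset.sum_nonneg (fun _ _ => sq_nonneg _)
  calc (∑ i ∈ E, (r i - 1) * (r i + 1)) ^ 2
      ≤ (∑ i ∈ E, (r i - 1) ^ 2) * ∑ i ∈ E, (r i + 1) ^ 2 := hCS
    _ ≤ (relEnt a * m) * (4 * m) := by
        apply mul_le_mul (hE1.trans hH') (hE2.trans hE3) hnn2
        exact hnn.trans (hE1.trans hH')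
    _ = 4 * relEnt a * m ^ 2 := by ring

lemma relEnt_nonneg {m : ℕ} (hm : 0 < m) (a : Fin m → ℝ) (ha : ∀ i, 0 ≤ a i) (hs : ∑ i, a i = 1) :
    0 ≤ relEnt a := by
  have := dev_sq_le hm a ha hs ∅
  have h2 := sq_nonneg (∑ i ∈ (∅ : Finset (Fin m)), a i - ((∅ : Finset (Fin m)).card : ℝ) / m)
  linarith


/-- Cumulative sums along the order of `Fin m`. -/
noncomputable def cum {m : ℕ} (a : Fin m → ℝ) (l : ℕ) : ℝ :=
  ∑ i ∈ Finset.univ.filter (fun i : Fin m => i.val < l), a i

lemma cum_zero {m : ℕ} (a : Fin m → ℝ) : cum a 0 = 0 := by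
  simp [cum]

lemma cum_top {m : ℕ} (a : Fin m → ℝ) : cum a m = ∑ i, a i := by
  unfold cum
  rw [Finset.filter_true_of_mem]
  intro i _
  exact i.isLt

lemma cum_succ {m : ℕ} (a : Fin m → ℝ) (i : Fin m) : cum a (i.val + 1) = cum a i.val + a i := by
  unfold cum
  have : Finset.univ.filter (fun j : Fin m => j.val < i.val + 1)
      = insert i (Finset.univ.filter (fun j : Fin m => j.val < i.val)) := by
    ext j
    simp only [Finset.mem_filter, Finset.mem_univ, true_and, Finset.mem_insert]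
    constructor
    · intro h
      by_cases hj : j.val = i.val
      · left; exact Fin.ext hj
      · right; omega
    · rintro (h | h)
      · rw [h]; omega
      · omega
  rw [this, Finset.sum_insert (by simp)]
  ring

lemma card_initial {m l : ℕ} (hl : l ≤ m) :
    (Finset.univ.filter (fun i : Fin m => i.val < l)).card = l := by
  have h : (Finset.univ.filter (fun i : Fin m => i.val < l)).map Fin.valEmbedding
      = Finset.range l := by
    ext x
    simp only [Finset.mem_map, Finset.mem_filter, Finset.mem_univ, true_and,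
      Fin.valEmbedding_apply, Finset.mem_range]
    constructor
    · rintro ⟨i, hi, rfl⟩; exact hi
    · intro hx; exact ⟨⟨x, by omega⟩, hx, rfl⟩
  rw [← Finset.card_map Fin.valEmbedding, h, Finset.card_range]

lemma cum_dev {m : ℕ} (hm : 0 < m) (a : Fin m → ℝ) (ha : ∀ i, 0 ≤ a i) (hs : ∑ i, a i = 1)
    {l : ℕ} (hl : l ≤ m) : |cum a l - (l : ℝ) / m| ≤ 2 * √(relEnt a) := by
  have h := dev_sq_le hm a ha hs (Finset.univ.filter (fun i : Fin m => i.val < l))
  rw [card_initial hl] at h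
  have h2 : (cum a l - (l : ℝ) / m) ^ 2 ≤ (2 * √(relEnt a)) ^ 2 := by
    rw [mul_pow, Real.sq_sqrt (relEnt_nonneg hm a ha hs)]
    norm_num
    exact h
  exact abs_le_of_sq_le_sq h2 (by positivity)

lemma cum_mono {m : ℕ} (a : Fin m → ℝ) (ha : ∀ i, 0 ≤ a i) {l l' : ℕ} (h : l ≤ l') :
    cum a l ≤ cum a l' := by
  unfold cum
  apply Finset.sum_le_sum_of_subset_of_nonneg
  · intro i hi
    simp only [Finset.mem_filter, Finset.mem_univ, true_and] at hi ⊢
    omega
  · intro i _ _; exact ha i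

/-- Overlap of two intervals. -/
noncomputable def ov (a b c d : ℝ) : ℝ := max 0 (min b d - max a c)

lemma ov_nonneg (a b c d : ℝ) : 0 ≤ ov a b c d := le_max_left _ _

lemma ov_comm (a b c d : ℝ) : ov a b c d = ov c d a b := by
  unfold ov; rw [min_comm, max_comm a c]

lemma ov_eq_clamp (a b c d : ℝ) (hab : a ≤ b) (hcd : c ≤ d) :
    ov a b c d = max a (min d b) - max a (min c b) := by
  unfold ov
  simp only [max_def, min_def]
  split_ifs <;> linarith

lemma ov_pos {a b c d : ℝ} (h : 0 < ov a b c d) : a < d ∧ c < b := by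
  unfold ov at h
  rcases lt_max_iff.1 h with h | h
  · exact absurd h (lt_irrefl _)
  · have h1 : min b d > max a c := by linarith
    have h2 := min_le_left b d
    have h3 := min_le_right b d
    have h4 := le_max_left a c
    have h5 := le_max_right a c
    constructor <;> linarith

/-- Marginal of the monotone coupling. -/
lemma ov_marginal {m : ℕ} (G : ℕ → ℝ) (hG : ∀ j : Fin m, G j.val ≤ G (j.val + 1))
    {u v : ℝ} (huv : u ≤ v) (hu : 0 ≤ u) (hv : v ≤ 1) (hG0 : G 0 = 0) (hG1 : G m = 1) :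
    ∑ j : Fin m, ov u v (G j.val) (G (j.val + 1)) = v - u := by
  have h : ∀ j : Fin m, ov u v (G j.val) (G (j.val + 1))
      = max u (min (G (j.val + 1)) v) - max u (min (G j.val) v) := fun j =>
    ov_eq_clamp _ _ _ _ huv (hG j)
  simp_rw [h]
  rw [Fin.sum_univ_eq_sum_range (fun l => max u (min (G (l + 1)) v) - max u (min (G l) v)) m]
  rw [Finset.sum_range_sub (fun l => max u (min (G l) v)) m, hG0, hG1]
  have e1 : min 1 v = v := min_eq_right hv
  have e2 : min 0 v = 0 := min_eq_left (hu.trans huv)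
  rw [e1, e2, max_eq_right huv, max_eq_left hu]


/-- The gap between cells seen by the monotone coupling is controlled by entropies. -/
lemma gap_bound {m : ℕ} (hm : 0 < m) (a b : Fin m → ℝ) (ha0 : ∀ i, 0 ≤ a i) (hb0 : ∀ i, 0 ≤ b i)
    (has : ∑ i, a i = 1) (hbs : ∑ i, b i = 1) (i j : Fin m)
    (h1 : cum a i.val < cum b (j.val + 1)) (h2 : cum b j.val < cum a (i.val + 1)) :
    (dd i j) ^ 2 / (8 * (m : ℝ) ^ 2) ≤ relEnt a + relEnt b := by
  have hm0 : (0 : ℝ) < m := by exact_mod_cast hm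
  have hDa := relEnt_nonneg hm a ha0 has
  have hDb := relEnt_nonneg hm b hb0 hbs
  have e1 := abs_le.1 (cum_dev hm a ha0 has i.isLt.le)
  have e2 := abs_le.1 (cum_dev hm a ha0 has (l := i.val + 1) i.isLt)
  have e3 := abs_le.1 (cum_dev hm b hb0 hbs j.isLt.le)
  have e4 := abs_le.1 (cum_dev hm b hb0 hbs (l := j.val + 1) j.isLt)
  obtain ⟨u, hu⟩ : ∃ u, u = √(relEnt a) := ⟨_, rfl⟩
  obtain ⟨v, hv⟩ : ∃ v, v = √(relEnt b) := ⟨_, rfl⟩
  rw [← hu] at e1 e2
  rw [← hv] at e3 e4
  have hu2 : u ^ 2 = relEnt a := by rw [hu]; exact Real.sq_sqrt hDa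
  have hv2 : v ^ 2 = relEnt b := by rw [hv]; exact Real.sq_sqrt hDb
  have hu0 : 0 ≤ u := by rw [hu]; exact Real.sqrt_nonneg _
  have hv0 : 0 ≤ v := by rw [hv]; exact Real.sqrt_nonneg _
  have hdiv1 : ((i.val : ℝ) - (j.val : ℝ) - 1) / m ≤ 2 * u + 2 * v := by
    have : ((i.val : ℝ) - (j.val : ℝ) - 1) / m
        = (i.val : ℝ) / m - (((j.val + 1 : ℕ) : ℝ)) / m := by
      push_cast; ring
    rw [this]
    linarith [e1.1, e4.2]
  have hdiv2 : ((j.val : ℝ) - (i.val : ℝ) - 1) / m ≤ 2 * u + 2 * v := by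
    have : ((j.val : ℝ) - (i.val : ℝ) - 1) / m
        = (j.val : ℝ) / m - (((i.val + 1 : ℕ) : ℝ)) / m := by
      push_cast; ring
    rw [this]
    linarith [e3.1, e2.2]
  rw [div_le_iff₀ hm0] at hdiv1 hdiv2
  have hdd : dd i j ≤ (2 * u + 2 * v) * m := by
    unfold dd
    apply max_le
    · rw [sub_le_iff_le_add, abs_le]
      constructor <;> linarith
    · positivity
  have hdd0 := dd_nonneg i j
  rw [div_le_iff₀ (by positivity), ← hu2, ← hv2]
  have h5 : (dd i j) ^ 2 ≤ ((2 * u + 2 * v) * m) ^ 2 := pow_le_pow_left₀ hdd0 hdd 2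
  have h6 : ((2 * u + 2 * v) * (m : ℝ)) ^ 2 ≤ (u ^ 2 + v ^ 2) * (8 * (m : ℝ) ^ 2) := by
    have : (2 * u + 2 * v) ^ 2 ≤ (u ^ 2 + v ^ 2) * 8 := by nlinarith [sq_nonneg (u - v)]
    rw [mul_pow]
    nlinarith [sq_nonneg (m : ℝ)]
  linarith

/-- The monotone coupling of two probability vectors, entropy form. -/
lemma coupling_core {m : ℕ} (hm : 0 < m) (a b : Fin m → ℝ) (ha0 : ∀ i, 0 ≤ a i)
    (hb0 : ∀ i, 0 ≤ b i) (has : ∑ i, a i = 1) (hbs : ∑ i, b i = 1) (C : ℝ)
    (h : ∀ i j, 0 < a i → 0 < b j →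
      C + Real.log (a i) + Real.log (b j) ≤ (dd i j) ^ 2 / (8 * (m : ℝ) ^ 2)) :
    C ≤ 2 * Real.log m := by
  have hF0 : cum a 0 = 0 := cum_zero a
  have hG0 : cum b 0 = 0 := cum_zero b
  have hF1 : cum a m = 1 := by rw [cum_top, has]
  have hG1 : cum b m = 1 := by rw [cum_top, hbs]
  have hFs : ∀ i : Fin m, cum a (i.val + 1) = cum a i.val + a i := cum_succ a
  have hGs : ∀ i : Fin m, cum b (i.val + 1) = cum b i.val + b i := cum_succ b
  have hFm : ∀ j : Fin m, cum a j.val ≤ cum a (j.val + 1) := fun j => by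
    rw [hFs]; linarith [ha0 j]
  have hGm : ∀ j : Fin m, cum b j.val ≤ cum b (j.val + 1) := fun j => by
    rw [hGs]; linarith [hb0 j]
  have hF01 : ∀ l, 0 ≤ cum a l ∧ (l ≤ m → cum a l ≤ 1) := fun l =>
    ⟨by rw [← hF0]; exact cum_mono a ha0 (Nat.zero_le l), fun hl => by
      rw [← hF1]; exact cum_mono a ha0 hl⟩
  have hG01 : ∀ l, 0 ≤ cum b l ∧ (l ≤ m → cum b l ≤ 1) := fun l =>
    ⟨by rw [← hG0]; exact cum_mono b hb0 (Nat.zero_le l), fun hl => by
      rw [← hG1]; exact cum_mono b hb0 hl⟩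
  obtain ⟨P, hP⟩ : ∃ P : Fin m → Fin m → ℝ, ∀ i j, P i j
      = ov (cum a i.val) (cum a (i.val + 1)) (cum b j.val) (cum b (j.val + 1)) :=
    ⟨_, fun _ _ => rfl⟩
  have hP0 : ∀ i j, 0 ≤ P i j := fun i j => by rw [hP]; exact ov_nonneg _ _ _ _
  have hPi : ∀ i, ∑ j, P i j = a i := by
    intro i
    have := ov_marginal (m := m) (cum b) hGm (hFm i) (hF01 _).1 ((hF01 _).2 i.isLt) hG0 hG1
    simp_rw [hP]
    rw [this, hFs i]
    ring
  have hPj : ∀ j, ∑ i, P i j = b j := by
    intro j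
    have := ov_marginal (m := m) (cum a) hFm (hGm j) (hG01 _).1 ((hG01 _).2 j.isLt) hF0 hF1
    simp_rw [hP]
    simp_rw [ov_comm (cum a _) _ (cum b j.val) _]
    rw [this, hGs j]
    ring
  have key : ∀ i j, P i j * (C + Real.log (a i) + Real.log (b j))
      ≤ P i j * (relEnt a + relEnt b) := by
    intro i j
    rcases (hP0 i j).eq_or_lt with h0 | h0
    · rw [← h0]; simp
    apply mul_le_mul_of_nonneg_left _ h0.le
    rw [hP] at h0
    obtain ⟨h1, h2⟩ := ov_pos h0
    have hai : 0 < a i := by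
      by_contra hc
      have h3 : a i = 0 := le_antisymm (not_lt.1 hc) (ha0 i)
      have h4 : cum a (i.val + 1) = cum a i.val := by rw [hFs, h3, add_zero]
      rw [h4] at h0
      unfold ov at h0
      have h5 : min (cum a i.val) (cum b (j.val + 1)) - max (cum a i.val) (cum b j.val) ≤ 0 := by
        have := min_le_left (cum a i.val) (cum b (j.val + 1))
        have := le_max_left (cum a i.val) (cum b j.val)
        linarith
      rw [max_eq_left h5] at h0
      exact lt_irrefl _ h0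
    have hbj : 0 < b j := by
      by_contra hc
      have h3 : b j = 0 := le_antisymm (not_lt.1 hc) (hb0 j)
      have h4 : cum b (j.val + 1) = cum b j.val := by rw [hGs, h3, add_zero]
      rw [h4] at h0
      unfold ov at h0
      have h5 : min (cum a (i.val + 1)) (cum b j.val) - max (cum a i.val) (cum b j.val) ≤ 0 := by
        have := min_le_right (cum a (i.val + 1)) (cum b j.val)
        have := le_max_right (cum a i.val) (cum b j.val)
        linarith
      rw [max_eq_left h5] at h0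
      exact lt_irrefl _ h0
    exact (h i j hai hbj).trans (gap_bound hm a b ha0 hb0 has hbs i j h1 h2)
  have hsum : ∑ i, ∑ j, P i j * (C + Real.log (a i) + Real.log (b j))
      ≤ ∑ i, ∑ j, P i j * (relEnt a + relEnt b) :=
    Finset.sum_le_sum (fun i _ => Finset.sum_le_sum (fun j _ => key i j))
  have hmass : ∑ i, ∑ j, P i j = 1 := by
    simp_rw [hPi]; exact has
  have hR : ∑ i, ∑ j, P i j * (relEnt a + relEnt b) = relEnt a + relEnt b := by
    simp_rw [← Finset.sum_mul]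
    rw [hmass, one_mul]
  have hL : ∑ i, ∑ j, P i j * (C + Real.log (a i) + Real.log (b j))
      = C + ∑ i, a i * Real.log (a i) + ∑ j, b j * Real.log (b j) := by
    have e0 : ∀ i j, P i j * (C + Real.log (a i) + Real.log (b j))
        = P i j * C + P i j * Real.log (a i) + P i j * Real.log (b j) :=
      fun i j => by ring
    simp_rw [e0, Finset.sum_add_distrib]
    have e1 : ∑ i, ∑ j, P i j * C = C := by
      simp_rw [← Finset.sum_mul]
      rw [hmass, one_mul]
    have e2 : ∑ i, ∑ j, P i j * Real.log (a i) = ∑ i, a i * Real.log (a i) := by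
      apply Finset.sum_congr rfl
      intro i _
      rw [← Finset.sum_mul, hPi]
    have e3 : ∑ i, ∑ j, P i j * Real.log (b j) = ∑ j, b j * Real.log (b j) := by
      rw [Finset.sum_comm]
      apply Finset.sum_congr rfl
      intro j _
      rw [← Finset.sum_mul, hPj]
    rw [e1, e2, e3]
  rw [hL, hR] at hsum
  unfold relEnt at hsum
  linarith

/-- The one-dimensional inequality (a discrete form of the property of Maurey). -/
theorem tau1 {m : ℕ} (hm : 0 < m) (φ ψ : Fin m → ℝ) (hφ : ∀ i, 0 ≤ φ i) (hψ : ∀ j, 0 ≤ ψ j)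
    (h : ∀ i j, φ i * ψ j ≤ Real.exp ((dd i j) ^ 2 / (8 * (m : ℝ) ^ 2))) :
    (∑ i, φ i) * (∑ j, ψ j) ≤ (m : ℝ) ^ 2 := by
  have hm0 : (0 : ℝ) < m := by exact_mod_cast hm
  have hA0 : 0 ≤ ∑ i, φ i := Finset.sum_nonneg (fun i _ => hφ i)
  have hB0 : 0 ≤ ∑ j, ψ j := Finset.sum_nonneg (fun i _ => hψ i)
  rcases hA0.eq_or_lt with hA1 | hA1
  · rw [← hA1]; simp
  rcases hB0.eq_or_lt with hB1 | hB1
  · rw [← hB1]; simp
  have hcore := coupling_core hm (fun i => φ i / ∑ i, φ i) (fun j => ψ j / ∑ j, ψ j)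
    (fun i => div_nonneg (hφ i) hA0) (fun i => div_nonneg (hψ i) hB0)
    (by rw [← Finset.sum_div, div_self hA1.ne']) (by rw [← Finset.sum_div, div_self hB1.ne'])
    (Real.log ((∑ i, φ i) * ∑ j, ψ j)) (by
      intro i j hai hbj
      have hφi : 0 < φ i := by
        by_contra hc
        have : φ i = 0 := le_antisymm (not_lt.1 hc) (hφ i)
        simp [this] at hai
      have hψj : 0 < ψ j := by
        by_contra hc
        have : ψ j = 0 := le_antisymm (not_lt.1 hc) (hψ j)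
        simp [this] at hbj
      have hlog := (Real.log_le_iff_le_exp (by positivity)).2 (h i j)
      rw [Real.log_mul hφi.ne' hψj.ne'] at hlog
      rw [Real.log_mul hA1.ne' hB1.ne', Real.log_div hφi.ne' hA1.ne',
        Real.log_div hψj.ne' hB1.ne']
      linarith)
  have hfinal : Real.log ((∑ i, φ i) * ∑ j, ψ j) ≤ Real.log ((m : ℝ) ^ 2) := by
    rw [Real.log_pow]
    push_cast
    exact hcore
  exact (Real.log_le_log_iff (by positivity) (by positivity)).1 hfinal

end Vale.Agent.Lib.P249Low
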