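import Mathlib
import Vale.Agent.Lib.P249Low.Tau

open Finset BigOperators Real

namespace Vale.Agent.Lib.P249Low

lemma sum_cons {α : Type} [Fintype α] {k : ℕ} (f : (Fin (k + 1) → α) → ℝ) :
    ∑ x, f x = ∑ i : α, ∑ x' : Fin k → α, f (Fin.cons i x') := by
  rw [← (Fin.consEquiv (fun _ : Fin (k + 1) => α)).sum_comp f, Fintype.sum_prod_type]
  rfl

/-- Tensorization of `tau1`. -/
theorem tauK {m : ℕ} (hm : 0 < m) : ∀ (k : ℕ) (Φ Ψ : (Fin k → Fin m) → ℝ),
    (∀ x, 0 ≤ Φ x) → (∀ y, 0 ≤ Ψ y) →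
    (∀ x y, Φ x * Ψ y ≤ Real.exp (∑ l, (dd (x l) (y l)) ^ 2 / (8 * (m : ℝ) ^ 2))) →
    (∑ x, Φ x) * (∑ y, Ψ y) ≤ ((m : ℝ) ^ k) ^ 2 := by
  have hm0 : (0 : ℝ) < m := by exact_mod_cast hm
  intro k
  induction k with
  | zero =>
    intro Φ Ψ _ _ h
    have := h default default
    simpa [Fintype.sum_unique] using this
  | succ k ih =>
    intro Φ Ψ hΦ hΨ h
    rw [sum_cons Φ, sum_cons Ψ]
    have hstep : ∀ (x' y' : Fin k → Fin m),
        (∑ i, Φ (Fin.cons i x')) * (∑ j, Ψ (Fin.cons j y'))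
          ≤ (m : ℝ) ^ 2 * Real.exp (∑ l, (dd (x' l) (y' l)) ^ 2 / (8 * (m : ℝ) ^ 2))
          := by
      intro x' y'
      obtain ⟨E, hE⟩ : ∃ E, E = ∑ l, (dd (x' l) (y' l)) ^ 2 / (8 * (m : ℝ) ^ 2) := ⟨_, rfl⟩
      rw [← hE]
      have h1 := tau1 hm (fun i => Φ (Fin.cons i x')) (fun j => Ψ (Fin.cons j y') * Real.exp (-E))
        (fun i => hΦ _) (fun j => mul_nonneg (hΨ _) (Real.exp_pos _).le) (by
          intro i j
          have h2 := h (Fin.cons i x') (Fin.cons j y')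
          rw [Fin.sum_univ_succ] at h2
          simp only [Fin.cons_zero, Fin.cons_succ] at h2
          rw [← hE, Real.exp_add] at h2
          rw [← mul_assoc]
          calc Φ (Fin.cons i x') * Ψ (Fin.cons j y') * Real.exp (-E)
              ≤ (Real.exp ((dd i j) ^ 2 / (8 * (m : ℝ) ^ 2)) * Real.exp E) * Real.exp (-E) :=
                mul_le_mul_of_nonneg_right h2 (Real.exp_pos _).le
            _ = Real.exp ((dd i j) ^ 2 / (8 * (m : ℝ) ^ 2)) := by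
                rw [mul_assoc, ← Real.exp_add]; simp)
      rw [← Finset.sum_mul, ← mul_assoc] at h1
      have h3 : Real.exp (-E) * Real.exp E = 1 := by rw [← Real.exp_add]; simp
      calc (∑ i, Φ (Fin.cons i x')) * (∑ j, Ψ (Fin.cons j y'))
          = ((∑ i, Φ (Fin.cons i x')) * (∑ j, Ψ (Fin.cons j y')) * Real.exp (-E)) * Real.exp E := by
            rw [mul_assoc _ (Real.exp (-E)), h3, mul_one]
        _ ≤ (m : ℝ) ^ 2 * Real.exp E :=
            mul_le_mul_of_nonneg_right h1 (Real.exp_pos _).le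
    have hih := ih (fun x' => (∑ i, Φ (Fin.cons i x')) / m) (fun y' => (∑ j, Ψ (Fin.cons j y')) / m)
      (fun x' => div_nonneg (Finset.sum_nonneg (fun i _ => hΦ _)) hm0.le)
      (fun y' => div_nonneg (Finset.sum_nonneg (fun i _ => hΨ _)) hm0.le) (by
        intro x' y'
        have := hstep x' y'
        rw [div_mul_div_comm, div_le_iff₀ (by positivity)]
        nlinarith)
    rw [← Finset.sum_div, ← Finset.sum_div, div_mul_div_comm, div_le_iff₀ (by positivity)] at hih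
    have e1 : ∑ i, ∑ x', Φ (Fin.cons i x') = ∑ x', ∑ i, Φ (Fin.cons i x') :=
      Finset.sum_comm
    have e2 : ∑ i, ∑ x', Ψ (Fin.cons i x') = ∑ x', ∑ i, Ψ (Fin.cons i x') :=
      Finset.sum_comm
    rw [e1, e2]
    calc (∑ x', ∑ i, Φ (Fin.cons i x')) * (∑ y', ∑ j, Ψ (Fin.cons j y'))
        ≤ ((m : ℝ) ^ k) ^ 2 * ((m : ℝ) * m) := hih
      _ = ((m : ℝ) ^ (k + 1)) ^ 2 := by ring


/-- Exponential form of concentration for functions that are `1`-Lipschitz for the Euclidean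
metric on the grid. -/
theorem conc {m k : ℕ} (hm : 0 < m) (g : (Fin k → Fin m) → ℝ)
    (hg : ∀ x y, (g x - g y) ^ 2 ≤ ∑ l, (((x l : ℕ) : ℝ) - ((y l : ℕ) : ℝ)) ^ 2) (t : ℝ) :
    (∑ x, Real.exp (t * g x)) * (∑ y, Real.exp (-(t * g y)))
      ≤ ((m : ℝ) ^ k) ^ 2 * Real.exp ((k : ℝ) / (8 * (m : ℝ) ^ 2) + 4 * t ^ 2 * (m : ℝ) ^ 2) := by
  have hm0 : (0 : ℝ) < m := by exact_mod_cast hm
  obtain ⟨E, hE⟩ : ∃ E, E = (k : ℝ) / (8 * (m : ℝ) ^ 2) + 4 * t ^ 2 * (m : ℝ) ^ 2 := ⟨_, rfl⟩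
  rw [← hE]
  have h1 := tauK hm k (fun x => Real.exp (t * g x)) (fun y => Real.exp (-(t * g y)) * Real.exp (-E))
    (fun x => (Real.exp_pos _).le) (fun y => by positivity) (by
      intro x y
      rw [← mul_assoc, ← Real.exp_add, ← Real.exp_add]
      apply Real.exp_le_exp.2
      have hz := hg x y
      have hsum : ∑ l, (((x l : ℕ) : ℝ) - ((y l : ℕ) : ℝ)) ^ 2
          ≤ ∑ l : Fin k, (2 * (dd (x l) (y l)) ^ 2 + 2) := by
        apply Finset.sum_le_sum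
        intro l _
        have h2 := abs_sub_le_dd (x l) (y l)
        have h3 := dd_nonneg (x l) (y l)
        have h4 : (((x l : ℕ) : ℝ) - ((y l : ℕ) : ℝ)) ^ 2 ≤ (dd (x l) (y l) + 1) ^ 2 := by
          rw [← sq_abs]
          exact pow_le_pow_left₀ (abs_nonneg _) h2 2
        nlinarith [sq_nonneg (dd (x l) (y l) - 1)]
      have hW : ∑ l : Fin k, (2 * (dd (x l) (y l)) ^ 2 + 2)
          = 2 * ∑ l, (dd (x l) (y l)) ^ 2 + 2 * k := by
        rw [Finset.sum_add_distrib, ← Finset.mul_sum]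
        simp
        ring
      have hC : ∑ l, (dd (x l) (y l)) ^ 2 / (8 * (m : ℝ) ^ 2)
          = (∑ l, (dd (x l) (y l)) ^ 2) / (8 * (m : ℝ) ^ 2) := by
        rw [Finset.sum_div]
      rw [hC]
      obtain ⟨W, hWd⟩ : ∃ W, W = ∑ l, (dd (x l) (y l)) ^ 2 := ⟨_, rfl⟩
      rw [← hWd] at hW ⊢
      obtain ⟨z, hzd⟩ : ∃ z, z = g x - g y := ⟨_, rfl⟩
      rw [← hzd] at hz
      have hz2 : z ^ 2 ≤ 2 * W + 2 * k := by linarith
      have hamgm : t * z ≤ z ^ 2 / (16 * (m : ℝ) ^ 2) + 4 * t ^ 2 * (m : ℝ) ^ 2 := by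
        have h5 : 0 ≤ (z / (4 * m) - 2 * t * m) ^ 2 := sq_nonneg _
        have h6 : (z / (4 * m) - 2 * t * m) ^ 2
            = z ^ 2 / (16 * (m : ℝ) ^ 2) - t * z + 4 * t ^ 2 * (m : ℝ) ^ 2 := by
          field_simp
          ring
        linarith
      have hdiv : z ^ 2 / (16 * (m : ℝ) ^ 2) ≤ W / (8 * (m : ℝ) ^ 2) + (k : ℝ) / (8 * (m : ℝ) ^ 2) := by
        rw [← add_div, div_le_div_iff₀ (by positivity) (by positivity)]
        have h7 : (0 : ℝ) < (m : ℝ) ^ 2 := by positivity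
        nlinarith
      have hexp : t * g x + -(t * g y) + -E = t * z - E := by
        rw [hzd]; ring
      rw [hexp, hE]
      linarith)
  rw [← Finset.sum_mul, ← mul_assoc] at h1
  have h3 : Real.exp (-E) * Real.exp E = 1 := by rw [← Real.exp_add]; simp
  calc (∑ x, Real.exp (t * g x)) * (∑ y, Real.exp (-(t * g y)))
      = ((∑ x, Real.exp (t * g x)) * (∑ y, Real.exp (-(t * g y))) * Real.exp (-E)) * Real.exp E := by
        rw [mul_assoc _ (Real.exp (-E)), h3, mul_one]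
    _ ≤ ((m : ℝ) ^ k) ^ 2 * Real.exp E :=
        mul_le_mul_of_nonneg_right h1 (Real.exp_pos _).le

/-- Pointwise moment bound through exponentials. -/
lemma rpow_abs_le (q t z : ℝ) (hq : 0 < q) (ht : 0 < t) :
    |z| ^ q ≤ (q / t) ^ q * (Real.exp (t * z) + Real.exp (-(t * z))) := by
  have hy : 0 ≤ t * |z| / q := by positivity
  have h1 : t * |z| / q ≤ Real.exp (t * |z| / q) := by
    have := Real.add_one_le_exp (t * |z| / q)
    linarith
  have h2 : (t * |z| / q) ^ q ≤ Real.exp (t * |z| / q) ^ q :=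
    Real.rpow_le_rpow hy h1 hq.le
  have h3 : Real.exp (t * |z| / q) ^ q = Real.exp (t * |z|) := by
    rw [← Real.exp_mul]
    congr 1
    field_simp
  rw [h3] at h2
  have h4 : Real.exp (t * |z|) ≤ Real.exp (t * z) + Real.exp (-(t * z)) := by
    rcases abs_cases z with ⟨h, _⟩ | ⟨h, _⟩
    · rw [h]; linarith [Real.exp_pos (-(t * z))]
    · rw [h]
      have : t * -z = -(t * z) := by ring
      rw [this]; linarith [Real.exp_pos (t * z)]
  have h5 : |z| = (q / t) * (t * |z| / q) := by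
    field_simp
  have h6 : |z| ^ q = (q / t) ^ q * (t * |z| / q) ^ q := by
    rw [← Real.mul_rpow (by positivity) hy, ← h5]
  rw [h6]
  apply mul_le_mul_of_nonneg_left (h2.trans h4) (by positivity)

/-- Moment bound on the grid. -/
theorem moment_bound {m k : ℕ} (hm : 0 < m) (hk : (k : ℝ) ≤ (m : ℝ) ^ 2) (p : ℝ) (hp : 0 < p)
    (g : (Fin k → Fin m) → ℝ)
    (hg : ∀ x y, (g x - g y) ^ 2 ≤ ∑ l, (((x l : ℕ) : ℝ) - ((y l : ℕ) : ℝ)) ^ 2) :
    ∑ x, ∑ y, |g x - g y| ^ p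
      ≤ (2 * Real.exp (33 / 8) * p ^ p) * (m : ℝ) ^ p * ((m : ℝ) ^ k) ^ 2 := by
  have hm0 : (0 : ℝ) < m := by exact_mod_cast hm
  have ht : (0 : ℝ) < 1 / m := by positivity
  have hc := conc hm g hg (1 / m)
  have hE : (k : ℝ) / (8 * (m : ℝ) ^ 2) + 4 * (1 / (m : ℝ)) ^ 2 * (m : ℝ) ^ 2 ≤ 33 / 8 := by
    have h1 : 4 * (1 / (m : ℝ)) ^ 2 * (m : ℝ) ^ 2 = 4 := by field_simp
    have h2 : (k : ℝ) / (8 * (m : ℝ) ^ 2) ≤ 1 / 8 := by
      rw [div_le_div_iff₀ (by positivity) (by norm_num)]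
      nlinarith
    rw [h1]; linarith
  have hc2 : (∑ x, Real.exp (1 / (m : ℝ) * g x)) * (∑ y, Real.exp (-(1 / (m : ℝ) * g y)))
      ≤ ((m : ℝ) ^ k) ^ 2 * Real.exp (33 / 8) :=
    hc.trans (mul_le_mul_of_nonneg_left (Real.exp_le_exp.2 hE) (by positivity))
  have hpt : (p / (1 / (m : ℝ))) ^ p = p ^ p * (m : ℝ) ^ p := by
    rw [← Real.mul_rpow hp.le hm0.le]
    congr 1
    field_simp
  have hpoint : ∀ x y, |g x - g y| ^ p ≤ (p ^ p * (m : ℝ) ^ p) *
      (Real.exp (1 / (m : ℝ) * g x) * Real.exp (-(1 / (m : ℝ) * g y))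
        + Real.exp (1 / (m : ℝ) * g y) * Real.exp (-(1 / (m : ℝ) * g x))) := by
    intro x y
    have := rpow_abs_le p (1 / m) (g x - g y) hp ht
    rw [hpt] at this
    have e1 : 1 / (m : ℝ) * (g x - g y) = 1 / (m : ℝ) * g x + -(1 / (m : ℝ) * g y) := by ring
    have e2 : -(1 / (m : ℝ) * (g x - g y)) = 1 / (m : ℝ) * g y + -(1 / (m : ℝ) * g x) := by ring
    rw [e1, Real.exp_add] at this
    rw [← e1, e2, Real.exp_add] at this
    exact this
  calc ∑ x, ∑ y, |g x - g y| ^ p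
      ≤ ∑ x, ∑ y, (p ^ p * (m : ℝ) ^ p) *
          (Real.exp (1 / (m : ℝ) * g x) * Real.exp (-(1 / (m : ℝ) * g y))
            + Real.exp (1 / (m : ℝ) * g y) * Real.exp (-(1 / (m : ℝ) * g x))) :=
        Finset.sum_le_sum (fun x _ => Finset.sum_le_sum (fun y _ => hpoint x y))
    _ = (p ^ p * (m : ℝ) ^ p) * (2 * ((∑ x, Real.exp (1 / (m : ℝ) * g x))
          * (∑ y, Real.exp (-(1 / (m : ℝ) * g y))))) := by
        simp_rw [← Finset.mul_sum, Finset.sum_add_distrib]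
        have e1 : ∑ x, ∑ y, Real.exp (1 / (m : ℝ) * g x) * Real.exp (-(1 / (m : ℝ) * g y))
            = (∑ x, Real.exp (1 / (m : ℝ) * g x)) * (∑ y, Real.exp (-(1 / (m : ℝ) * g y))) := by
          rw [Finset.sum_mul_sum]
        have e2 : ∑ x, ∑ y, Real.exp (1 / (m : ℝ) * g y) * Real.exp (-(1 / (m : ℝ) * g x))
            = (∑ x, Real.exp (1 / (m : ℝ) * g x)) * (∑ y, Real.exp (-(1 / (m : ℝ) * g y))) := by
          rw [Finset.sum_comm, Finset.sum_mul_sum]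
        rw [e1, e2]
        ring
    _ ≤ (p ^ p * (m : ℝ) ^ p) * (2 * (((m : ℝ) ^ k) ^ 2 * Real.exp (33 / 8))) := by
        apply mul_le_mul_of_nonneg_left _ (by positivity)
        linarith
    _ = (2 * Real.exp (33 / 8) * p ^ p) * (m : ℝ) ^ p * ((m : ℝ) ^ k) ^ 2 := by ring

end Vale.Agent.Lib.P249Low
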