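import Mathlib
import Vale.Agent.Lib.P249Low.Conc

open Finset BigOperators Real

namespace Vale.Agent.Lib.P249Low

/-- Signs. -/
def sg (b : Bool) : ℝ := if b then 1 else -1

/-- Rademacher sum. -/
noncomputable def radS {k : ℕ} (a : Fin k → ℝ) (ω : Fin k → Bool) : ℝ := ∑ l, a l * sg (ω l)

lemma radS_cons {k : ℕ} (a : Fin (k + 1) → ℝ) (b : Bool) (ω : Fin k → Bool) :
    radS a (Fin.cons b ω) = a 0 * sg b + radS (fun l => a l.succ) ω := by
  unfold radS
  rw [Fin.sum_univ_succ]
  simp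

lemma sum_bool (f : Bool → ℝ) : ∑ b, f b = f true + f false := by simp

/-- The exponential moment of a Rademacher sum. -/
theorem rad_mgf {k : ℕ} (a : Fin k → ℝ) (t : ℝ) :
    ∑ ω, Real.exp (t * radS a ω) ≤ (2 : ℝ) ^ k * Real.exp (t ^ 2 * (∑ l, a l ^ 2) / 2) := by
  induction k with
  | zero => simp [radS]
  | succ k ih =>
    rw [sum_cons, sum_bool]
    have e : ∀ b : Bool, ∑ ω : Fin k → Bool, Real.exp (t * radS a (Fin.cons b ω))
        = Real.exp (t * (a 0 * sg b)) * ∑ ω, Real.exp (t * radS (fun l => a l.succ) ω) := by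
      intro b
      rw [Finset.mul_sum]
      apply Finset.sum_congr rfl
      intro ω _
      rw [radS_cons, ← Real.exp_add]
      congr 1
      ring
    rw [e true, e false, ← add_mul]
    have h1 := ih (fun l => a l.succ)
    have h2 : Real.exp (t * (a 0 * sg true)) + Real.exp (t * (a 0 * sg false))
        = 2 * Real.cosh (t * a 0) := by
      rw [Real.cosh_eq]
      simp only [sg, if_true, Bool.false_eq_true, if_false]
      have e1 : t * (a 0 * 1) = t * a 0 := by ring
      have e2 : t * (a 0 * -1) = -(t * a 0) := by ring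
      rw [e1, e2]
      ring
    rw [h2]
    have h3 := Real.cosh_le_exp_half_sq (t * a 0)
    have h4 : 0 ≤ ∑ ω, Real.exp (t * radS (fun l => a l.succ) ω) :=
      Finset.sum_nonneg (fun _ _ => (Real.exp_pos _).le)
    calc 2 * Real.cosh (t * a 0) * ∑ ω, Real.exp (t * radS (fun l => a l.succ) ω)
        ≤ 2 * Real.exp ((t * a 0) ^ 2 / 2) *
          ((2 : ℝ) ^ k * Real.exp (t ^ 2 * (∑ l : Fin k, a l.succ ^ 2) / 2)) := by
          apply mul_le_mul _ h1 h4 (by positivity)
          linarith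
      _ = (2 : ℝ) ^ (k + 1) * Real.exp (t ^ 2 * (∑ l, a l ^ 2) / 2) := by
          rw [Fin.sum_univ_succ, pow_succ]
          have : Real.exp (t ^ 2 * (a 0 ^ 2 + ∑ l : Fin k, a l.succ ^ 2) / 2)
              = Real.exp ((t * a 0) ^ 2 / 2) * Real.exp (t ^ 2 * (∑ l : Fin k, a l.succ ^ 2) / 2) := by
            rw [← Real.exp_add]; congr 1; ring
          rw [this]
          ring_nf

/-- The second moment of a Rademacher sum. -/
theorem rad_second {k : ℕ} (a : Fin k → ℝ) :
    ∑ ω, radS a ω ^ 2 = (2 : ℝ) ^ k * ∑ l, a l ^ 2 := by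
  induction k with
  | zero => simp [radS]
  | succ k ih =>
    rw [sum_cons, sum_bool]
    simp_rw [radS_cons]
    rw [← Finset.sum_add_distrib]
    have e : ∀ ω : Fin k → Bool, (a 0 * sg true + radS (fun l => a l.succ) ω) ^ 2
        + (a 0 * sg false + radS (fun l => a l.succ) ω) ^ 2
        = 2 * a 0 ^ 2 + 2 * radS (fun l => a l.succ) ω ^ 2 := by
      intro ω
      simp only [sg, if_true, Bool.false_eq_true, if_false]
      ring
    simp_rw [e]
    rw [Finset.sum_add_distrib, ← Finset.mul_sum (f := fun ω => radS (fun l => a l.succ) ω ^ 2),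
      ih (fun l => a l.succ), Fin.sum_univ_succ]
    simp only [Finset.sum_const, Finset.card_univ, Fintype.card_pi, Fintype.card_bool,
      Finset.prod_const, Fintype.card_fin, nsmul_eq_mul]
    push_cast
    ring

/-- Lower Khintchine bound for `p >= 2`. -/
theorem rad_lower {k : ℕ} (a : Fin k → ℝ) {p : ℝ} (hp : 2 ≤ p) :
    (2 : ℝ) ^ k * (∑ l, a l ^ 2) ^ (p / 2) ≤ ∑ ω, |radS a ω| ^ p := by
  have h2k : (0 : ℝ) < 2 ^ k := by positivity
  have hw : ∑ _ω : Fin k → Bool, ((2 : ℝ) ^ k)⁻¹ = 1 := by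
    simp only [Finset.sum_const, Finset.card_univ, Fintype.card_pi, Fintype.card_bool,
      Finset.prod_const, Fintype.card_fin, nsmul_eq_mul]
    push_cast
    field_simp
  have hj := Real.rpow_arith_mean_le_arith_mean_rpow Finset.univ
    (fun _ : Fin k → Bool => ((2 : ℝ) ^ k)⁻¹) (fun ω => radS a ω ^ 2)
    (fun _ _ => by positivity) hw (fun _ _ => sq_nonneg _) (p := p / 2) (by linarith)
  have e1 : ∑ ω, ((2 : ℝ) ^ k)⁻¹ * radS a ω ^ 2 = ∑ l, a l ^ 2 := by
    rw [← Finset.mul_sum, rad_second]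
    field_simp
  have e2 : ∀ ω, (radS a ω ^ 2) ^ (p / 2) = |radS a ω| ^ p := by
    intro ω
    rw [← sq_abs, ← Real.rpow_natCast, ← Real.rpow_mul (abs_nonneg _)]
    congr 1
    push_cast
    ring
  rw [e1] at hj
  simp_rw [e2] at hj
  rw [← Finset.mul_sum] at hj
  rw [inv_mul_eq_div, le_div_iff₀ h2k] at hj
  linarith

/-- Upper Khintchine bound. -/
theorem rad_upper {k : ℕ} (a : Fin k → ℝ) {p : ℝ} (hp : 0 < p) :
    ∑ ω, |radS a ω| ^ p
      ≤ (2 * Real.exp (1 / 2) * p ^ p) * ((2 : ℝ) ^ k * (∑ l, a l ^ 2) ^ (p / 2)) := by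
  have hA0 : 0 ≤ ∑ l, a l ^ 2 := Finset.sum_nonneg (fun _ _ => sq_nonneg _)
  rcases hA0.eq_or_lt with hA | hA
  · have hz : ∀ l, a l = 0 := by
      intro l
      have := (Finset.sum_eq_zero_iff_of_nonneg (fun l _ => sq_nonneg (a l))).1 hA.symm l
        (Finset.mem_univ _)
      exact pow_eq_zero_iff (two_ne_zero) |>.1 this
    have hS : ∀ ω, radS a ω = 0 := by
      intro ω; unfold radS; simp [hz]
    simp_rw [hS]
    rw [← hA, Real.zero_rpow (by positivity)]
    simp [Real.zero_rpow hp.ne']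
  · obtain ⟨A, hAd⟩ : ∃ A, A = ∑ l, a l ^ 2 := ⟨_, rfl⟩
    rw [← hAd] at hA ⊢
    have hs : 0 < √A := Real.sqrt_pos.2 hA
    have hs2 : √A ^ 2 = A := Real.sq_sqrt hA.le
    have ht : 0 < 1 / √A := by positivity
    have hpoint := fun ω => rpow_abs_le p (1 / √A) (radS a ω) hp ht
    have hmgf1 := rad_mgf a (1 / √A)
    have hmgf2 := rad_mgf a (-(1 / √A))
    rw [← hAd] at hmgf1 hmgf2
    have ee : (1 / √A) ^ 2 * A / 2 = 1 / 2 := by
      rw [div_pow, hs2]; field_simp
    have ee2 : (-(1 / √A)) ^ 2 * A / 2 = 1 / 2 := by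
      rw [neg_sq]; exact ee
    rw [ee] at hmgf1
    rw [ee2] at hmgf2
    have hq : (p / (1 / √A)) ^ p = p ^ p * A ^ (p / 2) := by
      have : p / (1 / √A) = p * √A := by field_simp
      rw [this, Real.mul_rpow hp.le hs.le, Real.sqrt_eq_rpow, ← Real.rpow_mul hA.le]
      congr 2
      ring
    calc ∑ ω, |radS a ω| ^ p
        ≤ ∑ ω, (p ^ p * A ^ (p / 2)) *
          (Real.exp (1 / √A * radS a ω) + Real.exp (-(1 / √A) * radS a ω)) := by
          apply Finset.sum_le_sum
          intro ω _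
          have := hpoint ω
          rw [hq] at this
          have e : -(1 / √A) * radS a ω = -(1 / √A * radS a ω) := by ring
          rw [e]
          exact this
      _ = (p ^ p * A ^ (p / 2)) * (∑ ω, Real.exp (1 / √A * radS a ω)
            + ∑ ω, Real.exp (-(1 / √A) * radS a ω)) := by
          rw [← Finset.mul_sum, Finset.sum_add_distrib]
      _ ≤ (p ^ p * A ^ (p / 2)) * ((2 : ℝ) ^ k * Real.exp (1 / 2)
            + (2 : ℝ) ^ k * Real.exp (1 / 2)) := by
          apply mul_le_mul_of_nonneg_left _ (by positivity)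
          linarith
      _ = (2 * Real.exp (1 / 2) * p ^ p) * ((2 : ℝ) ^ k * A ^ (p / 2)) := by ring

end Vale.Agent.Lib.P249Low
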