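import Mathlib
import Vale.Agent.Lib.P249Low.Rad

open Finset BigOperators Real

namespace Vale.Agent.Lib.P249Low

/-- Squared Euclidean distance on the grid. -/
noncomputable def gridQ {k m : ℕ} (x y : Fin k → Fin m) : ℝ :=
  ∑ l, (((x l : ℕ) : ℝ) - ((y l : ℕ) : ℝ)) ^ 2

/-- The Rademacher image of a grid point. -/
noncomputable def gridP {k m : ℕ} (x : Fin k → Fin m) (ω : Fin k → Bool) : ℝ :=
  radS (fun l => ((x l : ℕ) : ℝ)) ω

lemma gridP_sub {k m : ℕ} (x y : Fin k → Fin m) (ω : Fin k → Bool) :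
    gridP x ω - gridP y ω = radS (fun l => ((x l : ℕ) : ℝ) - ((y l : ℕ) : ℝ)) ω := by
  unfold gridP radS
  rw [← Finset.sum_sub_distrib]
  apply Finset.sum_congr rfl
  intro l _
  ring

lemma sum_range_id (m : ℕ) : ∑ i ∈ Finset.range m, (i : ℝ) = (m : ℝ) * ((m : ℝ) - 1) / 2 := by
  induction m with
  | zero => simp
  | succ n ih =>
    rw [Finset.sum_range_succ, ih]
    push_cast
    ring

lemma sum_range_sq (m : ℕ) :
    ∑ i ∈ Finset.range m, (i : ℝ) ^ 2 = (m : ℝ) * ((m : ℝ) - 1) * (2 * (m : ℝ) - 1) / 6 := by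
  induction m with
  | zero => simp
  | succ n ih =>
    rw [Finset.sum_range_succ, ih]
    push_cast
    ring

/-- The sum of squared differences over a line. -/
lemma line_sum (m : ℕ) :
    ∑ i : Fin m, ∑ j : Fin m, (((i : ℕ) : ℝ) - ((j : ℕ) : ℝ)) ^ 2
      = (m : ℝ) ^ 2 * ((m : ℝ) ^ 2 - 1) / 6 := by
  have e : ∀ i j : Fin m, (((i : ℕ) : ℝ) - ((j : ℕ) : ℝ)) ^ 2
      = ((i : ℕ) : ℝ) ^ 2 - 2 * (((i : ℕ) : ℝ) * ((j : ℕ) : ℝ)) + ((j : ℕ) : ℝ) ^ 2 := fun i j => by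
    ring
  simp_rw [e]
  have s1 : ∑ i : Fin m, ((i : ℕ) : ℝ) = (m : ℝ) * ((m : ℝ) - 1) / 2 := by
    rw [Fin.sum_univ_eq_sum_range (fun i => (i : ℝ)) m, sum_range_id]
  have s2 : ∑ i : Fin m, ((i : ℕ) : ℝ) ^ 2 = (m : ℝ) * ((m : ℝ) - 1) * (2 * (m : ℝ) - 1) / 6 := by
    rw [Fin.sum_univ_eq_sum_range (fun i => (i : ℝ) ^ 2) m, sum_range_sq]
  have s3 : ∑ i : Fin m, ∑ j : Fin m, (((i : ℕ) : ℝ) ^ 2 - 2 * (((i : ℕ) : ℝ) * ((j : ℕ) : ℝ))
      + ((j : ℕ) : ℝ) ^ 2)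
      = (m : ℝ) * (∑ i : Fin m, ((i : ℕ) : ℝ) ^ 2) - 2 * ((∑ i : Fin m, ((i : ℕ) : ℝ)) * (∑ i : Fin m, ((i : ℕ) : ℝ)))
        + (m : ℝ) * (∑ i : Fin m, ((i : ℕ) : ℝ) ^ 2) := by
    simp_rw [Finset.sum_add_distrib, Finset.sum_sub_distrib, Finset.sum_const, Finset.card_univ,
      Fintype.card_fin, nsmul_eq_mul, ← Finset.mul_sum, ← Finset.sum_mul]
  rw [s3, s1, s2]
  ring

/-- Total mass of the squared distance on the grid. -/
theorem grid_sum {m : ℕ} : ∀ k : ℕ,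
    ∑ x : Fin k → Fin m, ∑ y : Fin k → Fin m, gridQ x y
      = ((m : ℝ) ^ k) ^ 2 * ((k : ℝ) * ((m : ℝ) ^ 2 - 1) / 6) := by
  intro k
  induction k with
  | zero => simp [gridQ]
  | succ k ih =>
    rw [sum_cons]
    have e1 : ∀ (i : Fin m) (x' : Fin k → Fin m),
        ∑ y : Fin (k + 1) → Fin m, gridQ (Fin.cons i x' : Fin (k + 1) → Fin m) y
        = ∑ j : Fin m, ∑ y' : Fin k → Fin m,
          ((((i : ℕ) : ℝ) - ((j : ℕ) : ℝ)) ^ 2 + gridQ x' y') := by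
      intro i x'
      rw [sum_cons]
      apply Finset.sum_congr rfl
      intro j _
      apply Finset.sum_congr rfl
      intro y' _
      unfold gridQ
      rw [Fin.sum_univ_succ]
      simp
    simp_rw [e1]
    simp_rw [Finset.sum_add_distrib]
    simp only [Finset.sum_const, Finset.card_univ, Fintype.card_pi, Fintype.card_fin,
      Finset.prod_const, nsmul_eq_mul]
    simp_rw [← Finset.mul_sum]
    rw [line_sum, ih]
    push_cast
    ring

/-- Lower bound on the moment of the Euclidean distance on the grid. -/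
theorem grid_moment {k m : ℕ} (hm : 2 ≤ m) {p : ℝ} (hp : 2 ≤ p) :
    ((m : ℝ) ^ k) ^ 2 * (((k : ℝ) / 12) ^ (p / 2) * (m : ℝ) ^ p)
      ≤ ∑ x : Fin k → Fin m, ∑ y : Fin k → Fin m, gridQ x y ^ (p / 2) := by
  have hm0 : (0 : ℝ) < m := by positivity
  have hm2 : (2 : ℝ) ≤ m := by exact_mod_cast hm
  have hM : (0 : ℝ) < ((m : ℝ) ^ k) ^ 2 := by positivity
  have hw : ∑ _x : (Fin k → Fin m) × (Fin k → Fin m), (((m : ℝ) ^ k) ^ 2)⁻¹ = 1 := by
    simp only [Finset.sum_const, Finset.card_univ, Fintype.card_prod, Fintype.card_pi,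
      Fintype.card_fin, Finset.prod_const, nsmul_eq_mul]
    push_cast
    field_simp
  have hq0 : ∀ x y : Fin k → Fin m, 0 ≤ gridQ x y := fun x y =>
    Finset.sum_nonneg (fun _ _ => sq_nonneg _)
  have hj := Real.rpow_arith_mean_le_arith_mean_rpow Finset.univ
    (fun _ : (Fin k → Fin m) × (Fin k → Fin m) => (((m : ℝ) ^ k) ^ 2)⁻¹)
    (fun z => gridQ z.1 z.2) (fun _ _ => by positivity) hw (fun z _ => hq0 z.1 z.2)
    (p := p / 2) (by linarith)
  have e1 : ∑ z : (Fin k → Fin m) × (Fin k → Fin m), (((m : ℝ) ^ k) ^ 2)⁻¹ * gridQ z.1 z.2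
      = (k : ℝ) * ((m : ℝ) ^ 2 - 1) / 6 := by
    rw [← Finset.mul_sum, Fintype.sum_prod_type, grid_sum]
    field_simp
  have e2 : ∑ z : (Fin k → Fin m) × (Fin k → Fin m), (((m : ℝ) ^ k) ^ 2)⁻¹ * gridQ z.1 z.2 ^ (p / 2)
      = (((m : ℝ) ^ k) ^ 2)⁻¹ * ∑ x : Fin k → Fin m, ∑ y : Fin k → Fin m, gridQ x y ^ (p / 2) := by
    rw [← Finset.mul_sum, Fintype.sum_prod_type]
  rw [e1, e2, inv_mul_eq_div, le_div_iff₀ hM] at hj
  have h3 : ((k : ℝ) / 12) * (m : ℝ) ^ 2 ≤ (k : ℝ) * ((m : ℝ) ^ 2 - 1) / 6 := by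
    have hk : (0 : ℝ) ≤ k := by positivity
    have : (m : ℝ) ^ 2 ≥ 4 := by nlinarith
    nlinarith
  have h4 : (((k : ℝ) / 12) * (m : ℝ) ^ 2) ^ (p / 2) ≤ ((k : ℝ) * ((m : ℝ) ^ 2 - 1) / 6) ^ (p / 2) :=
    Real.rpow_le_rpow (by positivity) h3 (by linarith)
  have h5 : (((k : ℝ) / 12) * (m : ℝ) ^ 2) ^ (p / 2) = ((k : ℝ) / 12) ^ (p / 2) * (m : ℝ) ^ p := by
    rw [Real.mul_rpow (by positivity) (by positivity)]
    congr 1
    rw [← Real.rpow_natCast, ← Real.rpow_mul hm0.le]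
    congr 1
    push_cast
    ring
  rw [h5] at h4
  calc ((m : ℝ) ^ k) ^ 2 * (((k : ℝ) / 12) ^ (p / 2) * (m : ℝ) ^ p)
      ≤ ((m : ℝ) ^ k) ^ 2 * ((k : ℝ) * ((m : ℝ) ^ 2 - 1) / 6) ^ (p / 2) :=
        mul_le_mul_of_nonneg_left h4 hM.le
    _ ≤ _ := by linarith

/-- The constant of the upper Khintchine bound. -/
noncomputable def cK (p : ℝ) : ℝ := 2 * Real.exp (1 / 2) * p ^ p

/-- The constant of the moment bound on the grid. -/
noncomputable def cM (p : ℝ) : ℝ := 2 * Real.exp (33 / 8) * p ^ p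

lemma cK_pos {p : ℝ} (hp : 0 < p) : 0 < cK p := by unfold cK; positivity
lemma cM_pos {p : ℝ} (hp : 0 < p) : 0 < cM p := by unfold cM; positivity

/-- A coordinate is controlled by the `ℓ_p` norm. -/
lemma coord_le {d : ℕ} (z : Fin d → ℝ) (r : Fin d) {p : ℝ} :
    |z r| ^ p ≤ ∑ r', |z r'| ^ p :=
  Finset.single_le_sum (f := fun r' => |z r'| ^ p) (fun _ _ => by positivity) (Finset.mem_univ r)

/-- The main finite theorem: dimension lower bound for the grid. -/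
theorem grid_bound {p : ℝ} (hp : 2 ≤ p) {k m d : ℕ} (hm : 2 ≤ m) (hkm : (k : ℝ) ≤ (m : ℝ) ^ 2)
    {D s : ℝ} (hD : 0 < D) (hs : 0 < s) (f : (Fin k → Fin m) → Fin d → ℝ)
    (h : ∀ x y, s * (∑ ω, |gridP x ω - gridP y ω| ^ p) ^ (1 / p)
        ≤ (∑ r, |f x r - f y r| ^ p) ^ (1 / p) ∧
      (∑ r, |f x r - f y r| ^ p) ^ (1 / p)
        ≤ D * s * (∑ ω, |gridP x ω - gridP y ω| ^ p) ^ (1 / p)) :
    ((k : ℝ) / 12) ^ (p / 2) ≤ D ^ p * (cK p * cM p) * d := by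
  have hp0 : 0 < p := by linarith
  have hm0 : (0 : ℝ) < m := by
    have : (2 : ℝ) ≤ m := by exact_mod_cast hm
    linarith
  have hmpos : 0 < m := by omega
  have hinv : (1 / p) * p = 1 := by field_simp
  obtain ⟨R, hR⟩ : ∃ R : (Fin k → Fin m) → (Fin k → Fin m) → ℝ,
      ∀ x y, R x y = ∑ ω, |gridP x ω - gridP y ω| ^ p := ⟨_, fun _ _ => rfl⟩
  obtain ⟨Y, hY⟩ : ∃ Y : (Fin k → Fin m) → (Fin k → Fin m) → ℝ,
      ∀ x y, Y x y = ∑ r, |f x r - f y r| ^ p := ⟨_, fun _ _ => rfl⟩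
  have hR0 : ∀ x y, 0 ≤ R x y := fun x y => by
    rw [hR]; exact Finset.sum_nonneg (fun _ _ => by positivity)
  have hY0 : ∀ x y, 0 ≤ Y x y := fun x y => by
    rw [hY]; exact Finset.sum_nonneg (fun _ _ => by positivity)
  simp_rw [← hR, ← hY] at h
  -- Khintchine
  have hRlow : ∀ x y, (2 : ℝ) ^ k * gridQ x y ^ (p / 2) ≤ R x y := by
    intro x y
    rw [hR]
    simp_rw [gridP_sub]
    exact rad_lower _ hp
  have hRup : ∀ x y, R x y ≤ cK p * ((2 : ℝ) ^ k * gridQ x y ^ (p / 2)) := by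
    intro x y
    rw [hR]
    simp_rw [gridP_sub]
    exact rad_upper _ hp0
  -- raise to the power p
  have hpow : ∀ {u v : ℝ}, 0 ≤ u → 0 ≤ v → u ^ (1 / p) ≤ v ^ (1 / p) → u ≤ v := by
    intro u v hu hv huv
    have := Real.rpow_le_rpow (by positivity) huv hp0.le
    rwa [← Real.rpow_mul hu, ← Real.rpow_mul hv, hinv, Real.rpow_one, Real.rpow_one] at this
  have hrootmul : ∀ {c u : ℝ}, 0 ≤ c → 0 ≤ u → c * u ^ (1 / p) = (c ^ p * u) ^ (1 / p) := by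
    intro c u hc hu
    rw [Real.mul_rpow (by positivity) hu, ← Real.rpow_mul hc, mul_comm p, hinv, Real.rpow_one]
  have hYlow : ∀ x y, s ^ p * R x y ≤ Y x y := by
    intro x y
    apply hpow (mul_nonneg (by positivity) (hR0 x y)) (hY0 x y)
    rw [← hrootmul hs.le (hR0 x y)]
    exact (h x y).1
  have hYup : ∀ x y, Y x y ≤ (D * s) ^ p * R x y := by
    intro x y
    apply hpow (hY0 x y) (mul_nonneg (by positivity) (hR0 x y))
    rw [← hrootmul (by positivity) (hR0 x y)]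
    exact (h x y).2
  -- Lipschitz coordinates
  obtain ⟨A, hA⟩ : ∃ A, A = (D * s) ^ p * (cK p * (2 : ℝ) ^ k) := ⟨_, rfl⟩
  have hApos : 0 < A := by
    rw [hA]; have := cK_pos hp0; positivity
  obtain ⟨L, hL⟩ : ∃ L, L = A ^ (1 / p) := ⟨_, rfl⟩
  have hLpos : 0 < L := by rw [hL]; positivity
  have hLp : L ^ p = A := by
    rw [hL, ← Real.rpow_mul hApos.le, hinv, Real.rpow_one]
  have hcoord : ∀ (r : Fin d) (x y), |f x r - f y r| ^ p ≤ A * gridQ x y ^ (p / 2) := by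
    intro r x y
    have h1 : |f x r - f y r| ^ p ≤ Y x y := by
      rw [hY]
      exact coord_le (fun r' => f x r' - f y r') r
    have h2 := hYup x y
    have h3 := hRup x y
    have h4 : (D * s) ^ p * R x y ≤ (D * s) ^ p * (cK p * ((2 : ℝ) ^ k * gridQ x y ^ (p / 2))) :=
      mul_le_mul_of_nonneg_left h3 (by positivity)
    rw [hA]
    calc |f x r - f y r| ^ p ≤ (D * s) ^ p * (cK p * ((2 : ℝ) ^ k * gridQ x y ^ (p / 2))) := by
          linarith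
      _ = _ := by ring
  have hlip : ∀ (r : Fin d) (x y), (f x r / L - f y r / L) ^ 2 ≤ gridQ x y := by
    intro r x y
    have hq0 : 0 ≤ gridQ x y := Finset.sum_nonneg (fun _ _ => sq_nonneg _)
    have h1 := hcoord r x y
    have h2 : |f x r - f y r| ≤ L * gridQ x y ^ ((1 : ℝ) / 2) := by
      have h3 : (|f x r - f y r| ^ p) ^ (1 / p) ≤ (A * gridQ x y ^ (p / 2)) ^ (1 / p) :=
        Real.rpow_le_rpow (by positivity) h1 (by positivity)
      rw [← Real.rpow_mul (abs_nonneg _), mul_comm p, hinv, Real.rpow_one,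
        Real.mul_rpow hApos.le (by positivity), ← Real.rpow_mul hq0, ← hL] at h3
      have e : p / 2 * (1 / p) = (1 : ℝ) / 2 := by field_simp
      rwa [e] at h3
    have h3 : (f x r / L - f y r / L) = (f x r - f y r) / L := by ring
    rw [h3, div_pow, div_le_iff₀ (by positivity)]
    have h4 : (f x r - f y r) ^ 2 = |f x r - f y r| ^ 2 := (sq_abs _).symm
    rw [h4]
    have h5 : |f x r - f y r| ^ 2 ≤ (L * gridQ x y ^ ((1 : ℝ) / 2)) ^ 2 :=
      pow_le_pow_left₀ (abs_nonneg _) h2 2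
    have h6 : (L * gridQ x y ^ ((1 : ℝ) / 2)) ^ 2 = gridQ x y * L ^ 2 := by
      rw [mul_pow, ← Real.sqrt_eq_rpow, Real.sq_sqrt hq0]
      ring
    linarith
  -- moment for a coordinate
  have hmoment : ∀ r : Fin d, ∑ x, ∑ y, |f x r - f y r| ^ p
      ≤ A * (cM p * (m : ℝ) ^ p * ((m : ℝ) ^ k) ^ 2) := by
    intro r
    have h1 := moment_bound hmpos hkm p hp0 (fun x => f x r / L) (fun x y => hlip r x y)
    have e : ∀ x y, |f x r - f y r| ^ p = A * |f x r / L - f y r / L| ^ p := by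
      intro x y
      have e1 : f x r - f y r = L * (f x r / L - f y r / L) := by field_simp
      conv_lhs => rw [e1]
      rw [abs_mul, Real.mul_rpow (abs_nonneg _) (abs_nonneg _), abs_of_pos hLpos, hLp]
    simp_rw [e, ← Finset.mul_sum]
    exact mul_le_mul_of_nonneg_left h1 hApos.le
  -- global comparison
  have hglobal : s ^ p * ((2 : ℝ) ^ k * (((m : ℝ) ^ k) ^ 2 * (((k : ℝ) / 12) ^ (p / 2) * (m : ℝ) ^ p)))
      ≤ (d : ℝ) * (A * (cM p * (m : ℝ) ^ p * ((m : ℝ) ^ k) ^ 2)) := by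
    calc s ^ p * ((2 : ℝ) ^ k * (((m : ℝ) ^ k) ^ 2 * (((k : ℝ) / 12) ^ (p / 2) * (m : ℝ) ^ p)))
        ≤ s ^ p * ((2 : ℝ) ^ k * ∑ x : Fin k → Fin m, ∑ y : Fin k → Fin m, gridQ x y ^ (p / 2)) := by
          apply mul_le_mul_of_nonneg_left _ (by positivity)
          apply mul_le_mul_of_nonneg_left _ (by positivity)
          exact grid_moment hm hp
      _ = ∑ x : Fin k → Fin m, ∑ y : Fin k → Fin m, s ^ p * ((2 : ℝ) ^ k * gridQ x y ^ (p / 2)) := by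
          simp_rw [← Finset.mul_sum]
      _ ≤ ∑ x, ∑ y, Y x y := by
          apply Finset.sum_le_sum; intro x _
          apply Finset.sum_le_sum; intro y _
          exact (mul_le_mul_of_nonneg_left (hRlow x y) (by positivity)).trans (hYlow x y)
      _ = ∑ r, ∑ x, ∑ y, |f x r - f y r| ^ p := by
          simp_rw [hY]
          have e3 : ∀ x : Fin k → Fin m, ∑ y : Fin k → Fin m, ∑ r, |f x r - f y r| ^ p
              = ∑ r, ∑ y : Fin k → Fin m, |f x r - f y r| ^ p := fun x => Finset.sum_comm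
          simp_rw [e3]
          rw [Finset.sum_comm]
      _ ≤ ∑ _r : Fin d, A * (cM p * (m : ℝ) ^ p * ((m : ℝ) ^ k) ^ 2) :=
          Finset.sum_le_sum (fun r _ => hmoment r)
      _ = _ := by simp
  rw [hA, Real.mul_rpow hD.le hs.le] at hglobal
  have hpos : 0 < s ^ p * (2 : ℝ) ^ k * ((m : ℝ) ^ k) ^ 2 * (m : ℝ) ^ p := by positivity
  have hfin : (s ^ p * (2 : ℝ) ^ k * ((m : ℝ) ^ k) ^ 2 * (m : ℝ) ^ p) * ((k : ℝ) / 12) ^ (p / 2)
      ≤ (s ^ p * (2 : ℝ) ^ k * ((m : ℝ) ^ k) ^ 2 * (m : ℝ) ^ p) * (D ^ p * (cK p * cM p) * d) := by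
    calc (s ^ p * (2 : ℝ) ^ k * ((m : ℝ) ^ k) ^ 2 * (m : ℝ) ^ p) * ((k : ℝ) / 12) ^ (p / 2)
        = s ^ p * ((2 : ℝ) ^ k * (((m : ℝ) ^ k) ^ 2 * (((k : ℝ) / 12) ^ (p / 2) * (m : ℝ) ^ p))) := by
          ring
      _ ≤ _ := hglobal
      _ = _ := by ring
  exact le_of_mul_le_mul_left hfin hpos

end Vale.Agent.Lib.P249Low
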