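import Mathlib
import Vale.Agent.Lib.P249Low.Grid

open Finset BigOperators Real

namespace Vale.Agent.Lib.P249Low

lemma gridP_inj {k m : ℕ} {p : ℝ} (hp : 2 ≤ p) {x y : Fin k → Fin m}
    (h : gridP x = gridP y) : x = y := by
  have hp0 : 0 < p := by linarith
  have h1 := rad_lower (fun l => ((x l : ℕ) : ℝ) - ((y l : ℕ) : ℝ)) hp
  have h2 : ∀ ω, radS (fun l => ((x l : ℕ) : ℝ) - ((y l : ℕ) : ℝ)) ω = 0 := by
    intro ω
    rw [← gridP_sub, h, sub_self]
  simp_rw [h2] at h1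
  simp only [abs_zero, Real.zero_rpow hp0.ne', Finset.sum_const_zero] at h1
  have h3 : (∑ l, (((x l : ℕ) : ℝ) - ((y l : ℕ) : ℝ)) ^ 2) ^ (p / 2) ≤ 0 := by
    have h2k : (0 : ℝ) < 2 ^ k := by positivity
    by_contra hc
    have := mul_pos h2k (not_le.1 hc)
    linarith
  have h4 : ∑ l, (((x l : ℕ) : ℝ) - ((y l : ℕ) : ℝ)) ^ 2 = 0 := by
    have h5 : 0 ≤ ∑ l, (((x l : ℕ) : ℝ) - ((y l : ℕ) : ℝ)) ^ 2 :=
      Finset.sum_nonneg (fun _ _ => sq_nonneg _)
    rcases h5.eq_or_lt with h6 | h6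
    · exact h6.symm
    · have := Real.rpow_pos_of_pos h6 (p / 2)
      linarith
  funext l
  have h5 := (Finset.sum_eq_zero_iff_of_nonneg (fun l _ => sq_nonneg _)).1 h4 l (Finset.mem_univ _)
  have h6 : ((x l : ℕ) : ℝ) - ((y l : ℕ) : ℝ) = 0 := pow_eq_zero_iff (two_ne_zero) |>.1 h5
  have h7 : ((x l : ℕ) : ℝ) = ((y l : ℕ) : ℝ) := by linarith
  exact Fin.ext (by exact_mod_cast h7)

/-- The padded point family: grid points inside an `n`-element index set. -/
noncomputable def padQ {k m n : ℕ} (ι : (Fin k → Fin m) → Fin n) (i : Fin n) :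
    Option (Fin k → Bool) → ℝ :=
  Function.extend ι (fun x o => o.elim 0 (gridP x)) (fun i o => o.elim ((i : ℕ) + 1 : ℝ) (fun _ => 0)) i

lemma padQ_apply {k m n : ℕ} {ι : (Fin k → Fin m) → Fin n} (hι : Function.Injective ι)
    (x : Fin k → Fin m) : padQ ι (ι x) = fun o => o.elim 0 (gridP x) := by
  unfold padQ
  exact hι.extend_apply _ _ x

lemma padQ_none {k m n : ℕ} {ι : (Fin k → Fin m) → Fin n} (i : Fin n)
    (hi : ¬∃ x, ι x = i) : padQ ι i = fun o => o.elim ((i : ℕ) + 1 : ℝ) (fun _ => 0) := by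
  unfold padQ
  exact Function.extend_apply' _ _ i hi

lemma padQ_inj {k m n : ℕ} {p : ℝ} (hp : 2 ≤ p) {ι : (Fin k → Fin m) → Fin n}
    (hι : Function.Injective ι) : Function.Injective (padQ ι) := by
  intro i j hij
  by_cases hi : ∃ x, ι x = i
  · obtain ⟨x, rfl⟩ := hi
    by_cases hj : ∃ y, ι y = j
    · obtain ⟨y, rfl⟩ := hj
      rw [padQ_apply hι, padQ_apply hι] at hij
      have : gridP x = gridP y := by
        funext ω
        exact congr_fun hij (some ω)
      rw [gridP_inj hp this]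
    · rw [padQ_apply hι, padQ_none j hj] at hij
      have := congr_fun hij none
      simp only [Option.elim_none] at this
      have h2 : (0 : ℝ) < ((j : ℕ) : ℝ) + 1 := by positivity
      linarith
  · by_cases hj : ∃ y, ι y = j
    · obtain ⟨y, rfl⟩ := hj
      rw [padQ_none i hi, padQ_apply hι] at hij
      have := congr_fun hij none
      simp only [Option.elim_none] at this
      have h2 : (0 : ℝ) < ((i : ℕ) : ℝ) + 1 := by positivity
      linarith
    · rw [padQ_none i hi, padQ_none j hj] at hij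
      have := congr_fun hij none
      simp only [Option.elim_none] at this
      have h2 : ((i : ℕ) : ℝ) = ((j : ℕ) : ℝ) := by linarith
      exact Fin.ext (by exact_mod_cast h2)

/-- Large range of `n`: the grid with side about the square root of the dimension. -/
lemma large_case {p : ℝ} (hp : 2 ≤ p) {D : ℝ} (hD : 1 ≤ D) {n : ℕ} (hn : 3 ≤ n)
    (hL : 4 ≤ Real.log n) :
    ∃ (N : ℕ) (P : Fin n → Fin N → ℝ), Function.Injective P ∧
      ∀ (d : ℕ) (y : Fin n → Fin d → ℝ) (s : ℝ), 0 < s →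
        (∀ i j, s * (∑ k, |P i k - P j k| ^ p) ^ (1 / p) ≤ (∑ r, |y i r - y j r| ^ p) ^ (1 / p) ∧
          (∑ r, |y i r - y j r| ^ p) ^ (1 / p) ≤ D * s * (∑ k, |P i k - P j k| ^ p) ^ (1 / p)) →
        (Real.log n / Real.log (Real.log n) / 24) ^ (p / 2)
          ≤ D ^ p * (cK p * cM p) * d := by
  have hp0 : 0 < p := by linarith
  obtain ⟨L, hLd⟩ : ∃ L, L = Real.log n := ⟨_, rfl⟩
  rw [← hLd] at hL ⊢
  have hn0 : (0 : ℝ) < n := by positivity
  -- numerics
  have hl1 : 1 ≤ Real.log L := by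
    have h1 : Real.exp 1 ≤ L := by
      have := Real.exp_one_lt_d9
      linarith
    have := Real.log_le_log (Real.exp_pos 1) h1
    rwa [Real.log_exp] at this
  have hl2 : Real.log L ≤ L / 2 := by
    have h1 := Real.log_le_sub_one_of_pos (show 0 < L / 2 by linarith)
    rw [Real.log_div (by linarith) (by norm_num)] at h1
    have h2 := Real.log_two_lt_d9
    linarith
  obtain ⟨l, hld⟩ : ∃ l, l = Real.log L := ⟨_, rfl⟩
  rw [← hld] at hl1 hl2 ⊢
  obtain ⟨q, hqd⟩ : ∃ q, q = L / l := ⟨_, rfl⟩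
  rw [← hqd]
  have hlpos : 0 < l := by linarith
  have hq2 : 2 ≤ q := by
    rw [hqd, le_div_iff₀ hlpos]; linarith
  have hqL : q ≤ L := by
    rw [hqd]; exact div_le_self (by linarith) hl1
  obtain ⟨k, hkd⟩ : ∃ k, k = ⌊q⌋₊ := ⟨_, rfl⟩
  have hkq : (k : ℝ) ≤ q := by rw [hkd]; exact Nat.floor_le (by linarith)
  have hqk : q < (k : ℝ) + 1 := by rw [hkd]; exact Nat.lt_floor_add_one q
  have hk1 : 1 ≤ k := by
    rw [hkd]; exact Nat.le_floor (by push_cast; linarith)
  have hk1r : (1 : ℝ) ≤ k := by exact_mod_cast hk1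
  obtain ⟨m, hmd⟩ : ∃ m, m = ⌈√(k : ℝ)⌉₊ + 1 := ⟨_, rfl⟩
  have hsqrtk : √(k : ℝ) ≤ ⌈√(k : ℝ)⌉₊ := Nat.le_ceil _
  have hsqrt1 : 1 ≤ √(k : ℝ) := by
    rw [Real.one_le_sqrt]; exact hk1r
  have hm2 : 2 ≤ m := by
    rw [hmd]
    have : 1 ≤ ⌈√(k : ℝ)⌉₊ := by
      have h : (1 : ℝ) ≤ ⌈√(k : ℝ)⌉₊ := hsqrt1.trans hsqrtk
      exact_mod_cast h
    omega
  have hmr : (m : ℝ) = (⌈√(k : ℝ)⌉₊ : ℝ) + 1 := by rw [hmd]; push_cast; ring
  have hkm : (k : ℝ) ≤ (m : ℝ) ^ 2 := by
    have h1 : √(k : ℝ) ≤ m := by rw [hmr]; linarith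
    have h2 := Real.sq_sqrt (show (0 : ℝ) ≤ k by positivity)
    have h3 : 0 ≤ √(k : ℝ) := Real.sqrt_nonneg _
    nlinarith
  have hmL : (m : ℝ) ≤ L := by
    have h1 : (⌈√(k : ℝ)⌉₊ : ℝ) < √(k : ℝ) + 1 := Nat.ceil_lt_add_one (Real.sqrt_nonneg _)
    have h2 : √(k : ℝ) ≤ L / 2 := by
      rw [Real.sqrt_le_left (by linarith)]
      nlinarith
    rw [hmr]; linarith
  have hm0 : (0 : ℝ) < m := by positivity
  have hlogm : Real.log m ≤ l := by
    rw [hld]; exact Real.log_le_log hm0 hmL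
  have hpowle : (m : ℝ) ^ k ≤ n := by
    have h1 : Real.log ((m : ℝ) ^ k) ≤ Real.log n := by
      rw [Real.log_pow, ← hLd]
      have h2 : (k : ℝ) * Real.log m ≤ q * l := by
        apply mul_le_mul hkq hlogm (Real.log_nonneg (by
          have : (2 : ℝ) ≤ m := by exact_mod_cast hm2
          linarith)) (by linarith)
      have h3 : q * l = L := by rw [hqd]; field_simp
      linarith
    exact (Real.log_le_log_iff (by positivity) hn0).1 h1
  have hcard : Fintype.card (Fin k → Fin m) ≤ Fintype.card (Fin n) := by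
    simp only [Fintype.card_pi, Fintype.card_fin, Finset.prod_const, Finset.card_univ]
    exact_mod_cast hpowle
  obtain ⟨ι⟩ := Function.Embedding.nonempty_of_card_le hcard
  have hι : Function.Injective ι := ι.injective
  refine ⟨Fintype.card (Option (Fin k → Bool)),
    fun i r => padQ ι i ((Fintype.equivFin (Option (Fin k → Bool))).symm r), ?_, ?_⟩
  · intro i j hij
    apply padQ_inj hp hι
    funext o
    have := congr_fun hij (Fintype.equivFin (Option (Fin k → Bool)) o)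
    simpa using this
  · intro d y s hs h
    have hsum : ∀ x x' : Fin k → Fin m,
        ∑ r, |padQ ι (ι x) ((Fintype.equivFin (Option (Fin k → Bool))).symm r)
          - padQ ι (ι x') ((Fintype.equivFin (Option (Fin k → Bool))).symm r)| ^ p
        = ∑ ω, |gridP x ω - gridP x' ω| ^ p := by
      intro x x'
      rw [(Fintype.equivFin (Option (Fin k → Bool))).symm.sum_comp
        (fun o => |padQ ι (ι x) o - padQ ι (ι x') o| ^ p)]
      rw [Fintype.sum_option, padQ_apply hι, padQ_apply hι]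
      simp [Real.zero_rpow hp0.ne']
    have hb := grid_bound hp hm2 hkm (by linarith : 0 < D) hs (fun x r => y (ι x) r) (by
      intro x x'
      have := h (ι x) (ι x')
      simp only [hsum] at this
      exact this)
    have hk12 : q / 24 ≤ (k : ℝ) / 12 := by linarith
    exact (Real.rpow_le_rpow (by linarith) hk12 (by linarith)).trans hb

/-- Small range of `n`: one coordinate is needed. -/
lemma small_case {p : ℝ} (hp : 2 ≤ p) {n : ℕ} (hn : 3 ≤ n) :
    ∃ (N : ℕ) (P : Fin n → Fin N → ℝ), Function.Injective P ∧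
      ∀ (d : ℕ) (y : Fin n → Fin d → ℝ) (s : ℝ), 0 < s → ∀ D : ℝ,
        (∀ i j, s * (∑ k, |P i k - P j k| ^ p) ^ (1 / p) ≤ (∑ r, |y i r - y j r| ^ p) ^ (1 / p) ∧
          (∑ r, |y i r - y j r| ^ p) ^ (1 / p) ≤ D * s * (∑ k, |P i k - P j k| ^ p) ^ (1 / p)) →
        1 ≤ d := by
  have hp0 : 0 < p := by linarith
  refine ⟨1, fun i _ => ((i : ℕ) : ℝ), ?_, ?_⟩
  · intro i j hij
    have := congr_fun hij 0
    simp only at this
    exact Fin.ext (by exact_mod_cast this)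
  · intro d y s hs D h
    by_contra hd
    have hd0 : d = 0 := by omega
    subst hd0
    have h1 := (h ⟨0, by omega⟩ ⟨1, by omega⟩).1
    simp [one_div, inv_ne_zero hp0.ne'] at h1
    linarith


/-- For small `n` the ratio of logarithms is bounded. -/
lemma ratio_small {n : ℕ} (hn : 3 ≤ n) (hL : Real.log n < 4) :
    0 ≤ Real.log n / Real.log (Real.log n) ∧
      Real.log n / Real.log (Real.log n) ≤ 1000 := by
  have hn3 : (3 : ℝ) ≤ n := by exact_mod_cast hn
  have h3 : (1.02 : ℝ) ≤ Real.log 3 := by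
    have h1 := Real.one_sub_inv_le_log_of_pos (show (0 : ℝ) < 3 / 2 by norm_num)
    have h2 : Real.log 3 = Real.log (3 / 2) + Real.log 2 := by
      rw [← Real.log_mul (by norm_num) (by norm_num)]; norm_num
    have h4 := Real.log_two_gt_d9
    norm_num at h1
    rw [h2]
    linarith
  have hL1 : (1.02 : ℝ) ≤ Real.log n := h3.trans (Real.log_le_log (by norm_num) hn3)
  obtain ⟨L, hLd⟩ : ∃ L, L = Real.log n := ⟨_, rfl⟩
  rw [← hLd] at hL hL1 ⊢
  have hl : (0.019 : ℝ) ≤ Real.log L := by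
    have h1 := Real.one_sub_inv_le_log_of_pos (show (0 : ℝ) < L by linarith)
    have h2 : L⁻¹ ≤ (1.02 : ℝ)⁻¹ := inv_anti₀ (by norm_num) hL1
    have h5 : (1.02 : ℝ)⁻¹ ≤ 0.981 := by norm_num
    linarith
  constructor
  · apply div_nonneg <;> linarith
  · rw [div_le_iff₀ (by linarith)]
    nlinarith

/-- The main theorem. -/
theorem lower_main (p : ℝ) (hp : 2 ≤ p) :
    ∃ c : ℝ, 0 < c ∧ ∀ D : ℝ, 1 ≤ D → ∀ n : ℕ, 3 ≤ n →
      ∃ (N : ℕ) (P : Fin n → Fin N → ℝ), Function.Injective P ∧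
        ∀ (d : ℕ) (y : Fin n → Fin d → ℝ) (s : ℝ), 0 < s →
          (∀ i j, s * (∑ k, |P i k - P j k| ^ p) ^ (1 / p) ≤ (∑ r, |y i r - y j r| ^ p) ^ (1 / p) ∧
            (∑ r, |y i r - y j r| ^ p) ^ (1 / p) ≤ D * s * (∑ k, |P i k - P j k| ^ p) ^ (1 / p)) →
          c * D ^ (-p) * (Real.log n / Real.log (Real.log n)) ^ (p / 2) ≤ d := by
  have hp0 : 0 < p := by linarith
  have hK : 0 < cK p * cM p := mul_pos (cK_pos hp0) (cM_pos hp0)
  refine ⟨min ((1000 : ℝ) ^ (-(p / 2))) ((24 : ℝ) ^ (-(p / 2)) / (cK p * cM p)),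
    lt_min (by positivity) (by positivity), ?_⟩
  intro D hD n hn
  have hD0 : 0 < D := by linarith
  have hDp : 0 < D ^ p := by positivity
  by_cases hL : 4 ≤ Real.log n
  · obtain ⟨N, P, hP, hmain⟩ := large_case hp hD hn hL
    refine ⟨N, P, hP, ?_⟩
    intro d y s hs h
    have h1 := hmain d y s hs h
    obtain ⟨q, hq⟩ : ∃ q, q = Real.log n / Real.log (Real.log n) := ⟨_, rfl⟩
    rw [← hq] at h1 ⊢
    have hq0 : 0 ≤ q := by
      rw [hq]
      apply div_nonneg
      · linarith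
      · apply Real.log_nonneg; linarith
    rw [Real.div_rpow hq0 (by norm_num)] at h1
    have hc : min ((1000 : ℝ) ^ (-(p / 2))) ((24 : ℝ) ^ (-(p / 2)) / (cK p * cM p))
        ≤ (24 : ℝ) ^ (-(p / 2)) / (cK p * cM p) := min_le_right _ _
    have e24 : (24 : ℝ) ^ (-(p / 2)) = ((24 : ℝ) ^ (p / 2))⁻¹ := Real.rpow_neg (by norm_num) _
    have eD : D ^ (-p) = (D ^ p)⁻¹ := Real.rpow_neg hD0.le _
    have hqp : 0 ≤ q ^ (p / 2) := by positivity
    calc min ((1000 : ℝ) ^ (-(p / 2))) ((24 : ℝ) ^ (-(p / 2)) / (cK p * cM p)) * D ^ (-p) * q ^ (p / 2)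
        ≤ ((24 : ℝ) ^ (-(p / 2)) / (cK p * cM p)) * D ^ (-p) * q ^ (p / 2) := by
          apply mul_le_mul_of_nonneg_right _ hqp
          apply mul_le_mul_of_nonneg_right hc (by positivity)
      _ = (q ^ (p / 2) / (24 : ℝ) ^ (p / 2)) / (D ^ p * (cK p * cM p)) := by
          rw [e24, eD]
          field_simp
      _ ≤ (D ^ p * (cK p * cM p) * d) / (D ^ p * (cK p * cM p)) := by
          apply div_le_div_of_nonneg_right h1 (by positivity)
      _ = d := mul_div_cancel_left₀ (d : ℝ) (mul_pos hDp hK).ne'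
  · obtain ⟨N, P, hP, hmain⟩ := small_case hp hn
    refine ⟨N, P, hP, ?_⟩
    intro d y s hs h
    have hd : (1 : ℝ) ≤ d := by exact_mod_cast hmain d y s hs D h
    obtain ⟨h0, h1⟩ := ratio_small hn (not_le.1 hL)
    have h2 : (Real.log n / Real.log (Real.log n)) ^ (p / 2) ≤ (1000 : ℝ) ^ (p / 2) :=
      Real.rpow_le_rpow h0 h1 (by linarith)
    have hc : min ((1000 : ℝ) ^ (-(p / 2))) ((24 : ℝ) ^ (-(p / 2)) / (cK p * cM p))
        ≤ (1000 : ℝ) ^ (-(p / 2)) := min_le_left _ _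
    have hc0 : 0 < min ((1000 : ℝ) ^ (-(p / 2))) ((24 : ℝ) ^ (-(p / 2)) / (cK p * cM p)) :=
      lt_min (by positivity) (by positivity)
    have hDm : D ^ (-p) ≤ 1 := Real.rpow_le_one_of_one_le_of_nonpos hD (by linarith)
    have hDm0 : 0 < D ^ (-p) := by positivity
    have e : (1000 : ℝ) ^ (-(p / 2)) * (1000 : ℝ) ^ (p / 2) = 1 := by
      rw [← Real.rpow_add (by norm_num)]; simp
    calc min ((1000 : ℝ) ^ (-(p / 2))) ((24 : ℝ) ^ (-(p / 2)) / (cK p * cM p)) * D ^ (-p)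
          * (Real.log n / Real.log (Real.log n)) ^ (p / 2)
        ≤ ((1000 : ℝ) ^ (-(p / 2)) * 1) * (1000 : ℝ) ^ (p / 2) := by
          apply mul_le_mul _ h2 (by positivity) (by positivity)
          exact mul_le_mul hc hDm hDm0.le (by positivity)
      _ = 1 := by rw [mul_one, e]
      _ ≤ d := hd

end Vale.Agent.Lib.P249Low
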